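import Mathlib.Data.Finset.Max
import Mathlib.Data.Finset.Lattice.Fold
import Mathlib.Data.Fintype.Powerset
import Mathlib.Data.Fintype.BigOperators
import Mathlib.Algebra.BigOperators.Group.Finset.Basic
import Mathlib.Algebra.Order.BigOperators.Group.Finset
import Mathlib.Data.Set.Finite.Lattice
import Mathlib.Tactic

/-!
# P038: closed neighbourhoods, the boundary function and its submodularity
-/

set_option linter.unusedSectionVars false

namespace Vale.Agent.P038.H323

open Finset

variable {V : Type*} [Fintype V] [DecidableEq V]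

/-- closure under one step -/
def cl (N : V → Finset V) (S : Finset V) : Finset V := S.biUnion N

/-- boundary size -/
def bd (N : V → Finset V) (S : Finset V) : ℤ := ((cl N S).card : ℤ) - S.card

theorem mem_cl {N : V → Finset V} {S : Finset V} {y : V} : y ∈ cl N S ↔ ∃ x ∈ S, y ∈ N x := by
  simp [cl]

theorem cl_mono {N : V → Finset V} {S T : Finset V} (h : S ⊆ T) : cl N S ⊆ cl N T :=
  Finset.biUnion_subset_biUnion_of_subset_left _ h

theorem cl_union {N : V → Finset V} (S T : Finset V) : cl N (S ∪ T) = cl N S ∪ cl N T := by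
  ext y; simp only [mem_cl, mem_union]; constructor
  · rintro ⟨x, hx | hx, hy⟩
    · exact Or.inl ⟨x, hx, hy⟩
    · exact Or.inr ⟨x, hx, hy⟩
  · rintro (⟨x, hx, hy⟩ | ⟨x, hx, hy⟩)
    · exact ⟨x, Or.inl hx, hy⟩
    · exact ⟨x, Or.inr hx, hy⟩

theorem subset_cl {N : V → Finset V} (hN : ∀ x, x ∈ N x) (S : Finset V) : S ⊆ cl N S :=
  fun x hx => mem_cl.2 ⟨x, hx, hN x⟩

theorem bd_submod (N : V → Finset V) (S T : Finset V) :
    bd N (S ∪ T) + bd N (S ∩ T) ≤ bd N S + bd N T := by
  have h1 : (cl N (S ∪ T)).card + (cl N (S ∩ T)).card ≤ (cl N S).card + (cl N T).card := by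
    rw [cl_union, ← Finset.card_union_add_card_inter (cl N S) (cl N T)]
    refine Nat.add_le_add_left (Finset.card_le_card ?_) _
    exact Finset.subset_inter (cl_mono inter_subset_left) (cl_mono inter_subset_right)
  have h2 := Finset.card_union_add_card_inter S T
  unfold bd
  push_cast [← @Nat.cast_inj ℤ] at h2
  have h1' : ((cl N (S ∪ T)).card : ℤ) + (cl N (S ∩ T)).card ≤ (cl N S).card + (cl N T).card := by
    exact_mod_cast h1
  linarith

open Classical in
/-- minimum of `bd` between `L ∪ (S ∩ M)` and `M` -/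
noncomputable def mu (N : V → Finset V) (L M S : Finset V) : ℤ :=
  if h : ((univ : Finset (Finset V)).filter fun T => L ⊆ T ∧ S ∩ M ⊆ T ∧ T ⊆ M).Nonempty then
    ((univ : Finset (Finset V)).filter fun T => L ⊆ T ∧ S ∩ M ⊆ T ∧ T ⊆ M).inf' h (bd N)
  else 0

theorem mu_le {N : V → Finset V} {L M S T : Finset V} (h1 : L ⊆ T) (h2 : S ∩ M ⊆ T)
    (h3 : T ⊆ M) : mu N L M S ≤ bd N T := by
  classical
  have hm : T ∈ (univ : Finset (Finset V)).filter fun T => L ⊆ T ∧ S ∩ M ⊆ T ∧ T ⊆ M := by
    simp [h1, h2, h3]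
  have hne : ((univ : Finset (Finset V)).filter fun T => L ⊆ T ∧ S ∩ M ⊆ T ∧ T ⊆ M).Nonempty :=
    ⟨T, hm⟩
  unfold mu
  rw [dif_pos hne]
  exact Finset.inf'_le _ hm

theorem mu_exists (N : V → Finset V) {L M : Finset V} (S : Finset V) (h : L ⊆ M) :
    ∃ T, L ⊆ T ∧ S ∩ M ⊆ T ∧ T ⊆ M ∧ mu N L M S = bd N T := by
  classical
  have hne : ((univ : Finset (Finset V)).filter fun T => L ⊆ T ∧ S ∩ M ⊆ T ∧ T ⊆ M).Nonempty :=
    ⟨M, by simp [h]⟩
  obtain ⟨T, hT, hT2⟩ := Finset.exists_mem_eq_inf' hne (bd N)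
  refine ⟨T, ?_⟩
  simp only [mem_filter, mem_univ, true_and] at hT
  refine ⟨hT.1, hT.2.1, hT.2.2, ?_⟩
  unfold mu
  rw [dif_pos hne]
  exact hT2

theorem mu_mono {N : V → Finset V} {L M S S' : Finset V} (h : L ⊆ M) (hS : S ⊆ S') :
    mu N L M S ≤ mu N L M S' := by
  obtain ⟨T, h1, h2, h3, h4⟩ := mu_exists N S' h
  rw [h4]
  exact mu_le h1 ((Finset.inter_subset_inter_right hS).trans h2) h3

theorem mu_insert_eq {N : V → Finset V} {L M S : Finset V} {q : V} (h : L ⊆ M)
    (hq : q ∈ L ∨ q ∉ M) : mu N L M (insert q S) ≤ mu N L M S := by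
  obtain ⟨T, h1, h2, h3, h4⟩ := mu_exists N S h
  rw [h4]
  refine mu_le h1 ?_ h3
  intro z hz
  simp only [mem_inter, mem_insert] at hz
  rcases hz with ⟨rfl | hz, hzM⟩
  · rcases hq with hq | hq
    · exact h1 hq
    · exact absurd hzM hq
  · exact h2 (mem_inter.2 ⟨hz, hzM⟩)

/-- comparison of marginals -/
theorem mu_marginal {N : V → Finset V} {L M L' M' S : Finset V} {q : V} (h : L ⊆ M)
    (h' : L' ⊆ M') (hL : L' ⊆ L) (hM : M' ⊆ M) (hq : q ∈ M') :
    mu N L M (insert q S) + mu N L' M' S ≤ mu N L M S + mu N L' M' (insert q S) := by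
  obtain ⟨T, a1, a2, a3, a4⟩ := mu_exists N S h
  obtain ⟨T', b1, b2, b3, b4⟩ := mu_exists N (insert q S) h'
  have e1 : mu N L M (insert q S) ≤ bd N (T ∪ T') := by
    refine mu_le (a1.trans subset_union_left) ?_ (union_subset a3 (b3.trans hM))
    intro z hz
    simp only [mem_inter, mem_insert] at hz
    rcases hz with ⟨rfl | hz, hzM⟩
    · exact mem_union_right _ (b2 (mem_inter.2 ⟨mem_insert_self _ _, hq⟩))
    · exact mem_union_left _ (a2 (mem_inter.2 ⟨hz, hzM⟩))
  have e2 : mu N L' M' S ≤ bd N (T ∩ T') := by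
    refine mu_le (subset_inter (hL.trans a1) b1) ?_ (inter_subset_right.trans b3)
    intro z hz
    simp only [mem_inter] at hz
    refine mem_inter.2 ⟨a2 (mem_inter.2 ⟨hz.1, hM hz.2⟩), b2 (mem_inter.2 ⟨mem_insert_of_mem hz.1, hz.2⟩)⟩
  have e3 := bd_submod N T T'
  rw [a4, b4]
  linarith

/-- integer layer cake -/
theorem layer {P : V → Prop} {adj : V → V → Prop} [DecidablePred P]
    [∀ x p, Decidable (adj x p)] (n : ℕ) :
    ∀ (f g : V → ℤ), (∀ x, 0 ≤ f x) → (∀ p, 0 ≤ g p) →
      (∀ R : Finset V, (∀ x ∈ R, 0 < f x) →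
        R.card ≤ (univ.filter fun p => P p ∧ ∃ x ∈ R, adj x p).card) →
      (∀ x p, P p → adj x p → f x ≤ g p) → ∑ x, f x ≤ n → ∑ x, f x ≤ ∑ p, g p := by
  induction n with
  | zero =>
    intro f g hf hg _ _ h0
    have : (0 : ℤ) ≤ ∑ p, g p := Finset.sum_nonneg fun p _ => hg p
    push_cast at h0
    linarith
  | succ n ih =>
    intro f g hf hg hall hle hn
    by_cases hz : ∀ x, f x = 0
    · have h1 : (0 : ℤ) ≤ ∑ p, g p := Finset.sum_nonneg fun p _ => hg p
      have h2 : ∑ x, f x = 0 := Finset.sum_eq_zero fun x _ => hz x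
      linarith
    push Not at hz
    obtain ⟨x0, hx0⟩ := hz
    set R : Finset V := univ.filter fun x => 0 < f x with hR
    set M : Finset V := univ.filter fun p => P p ∧ ∃ x ∈ R, adj x p with hM
    have hmemR : ∀ x, x ∈ R ↔ 0 < f x := by intro x; simp [hR]
    have hcard : R.card ≤ M.card := hall R fun x hx => (hmemR x).1 hx
    have hx0R : x0 ∈ R := (hmemR x0).2 (lt_of_le_of_ne (hf x0) (Ne.symm hx0))
    have hRpos : 0 < R.card := Finset.card_pos.2 ⟨x0, hx0R⟩
    let f' : V → ℤ := fun x => f x - if x ∈ R then 1 else 0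
    let g' : V → ℤ := fun p => g p - if p ∈ M then 1 else 0
    have sf : ∑ x, f' x = ∑ x, f x - R.card := by
      simp [f', Finset.sum_sub_distrib]
    have sg : ∑ x, g' x = ∑ x, g x - M.card := by
      simp [g', Finset.sum_sub_distrib]
    have hf' : ∀ x, 0 ≤ f' x := by
      intro x
      by_cases hx : x ∈ R
      · have := (hmemR x).1 hx
        simp only [f', hx, if_true]; omega
      · simp only [f', hx, if_false]; have := hf x; omega
    have hff : ∀ x, 0 < f' x → 0 < f x := by
      intro x hx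
      by_cases hxR : x ∈ R
      · exact (hmemR x).1 hxR
      · simp only [f', hxR, if_false] at hx; omega
    have hg' : ∀ p, 0 ≤ g' p := by
      intro p
      by_cases hp : p ∈ M
      · obtain ⟨hP, x, hx, hxp⟩ := (by simpa [hM] using hp : P p ∧ ∃ x ∈ R, adj x p)
        have h1 := hle x p hP hxp
        have h2 := (hmemR x).1 hx
        simp only [g', hp, if_true]; omega
      · simp only [g', hp, if_false]; have := hg p; omega
    have key := ih f' g' hf' hg' (fun R' hR' => hall R' fun x hx => hff x (hR' x hx))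
      (by
        intro x p hP hxp
        by_cases hx : x ∈ R
        · have hp : p ∈ M := by simp only [hM, mem_filter, mem_univ, true_and]; exact ⟨hP, x, hx, hxp⟩
          have h1 := hle x p hP hxp
          simp only [f', g', hx, hp, if_true]; omega
        · have h3 : f x = 0 := by
            have h4 := hf x
            have h5 : ¬ 0 < f x := fun h => hx ((hmemR x).2 h)
            omega
          have h6 : f' x = 0 := by simp only [f', hx, if_false]; omega
          rw [h6]; exact hg' p)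
      (by
        rw [sf]
        have : (1 : ℤ) ≤ R.card := by exact_mod_cast hRpos
        push_cast at hn
        linarith)
    rw [sf, sg] at key
    have : (R.card : ℤ) ≤ M.card := by exact_mod_cast hcard
    linarith

/-- double counting -/
theorem dc (F : V → Finset V) :
    ∑ b, ((univ.filter fun x => b ∈ F x).card : ℤ) = ∑ x, ((F x).card : ℤ) := by
  have h : ∀ b, ((univ.filter fun x => b ∈ F x).card : ℤ) = ∑ x, if b ∈ F x then (1 : ℤ) else 0 := by
    intro b; simp
  simp_rw [h]
  rw [Finset.sum_comm]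
  refine Finset.sum_congr rfl fun x _ => ?_
  simp

end Vale.Agent.P038.H323
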