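import Vale.Agent.P038.H323.Star

/-!
# P038: the descent, hence no graph satisfies (G)
-/

set_option linter.unusedSectionVars false

namespace Vale.Agent.P038.H323

open Finset

variable {V : Type*} [Fintype V] [DecidableEq V]

theorem bd_eq_sdiff {N : V → Finset V} (hN : ∀ x, x ∈ N x) (S : Finset V) :
    bd N S = ((cl N S \ S).card : ℤ) := by
  have h := Finset.card_sdiff_add_card_eq_card (subset_cl hN S)
  unfold bd
  have : (((cl N S \ S).card : ℤ)) + S.card = (cl N S).card := by exact_mod_cast h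
  linarith

/-- If `(G)` holds there is no vertex on a directed cycle. -/
theorem no_G (N : V → Finset V) (hN : ∀ x, x ∈ N x)
    (hA : ∀ x y, y ∈ N x → x ∈ N y → x = y)
    (hG : ∀ S, cl N S ≠ S → bd N (cl N S) < bd N S)
    (p0 x0 : V) (hx0 : x0 ≠ p0) (hx0p : p0 ∈ N x0)
    (hcyc : ∀ S : Finset V, p0 ∈ S → cl N S = S → x0 ∈ S) : False := by
  classical
  have hG' : ∀ S, bd N (cl N S) ≤ bd N S := by
    intro S
    by_cases h : cl N S = S
    · rw [h]
    · exact (hG S h).le
  -- a minimiser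
  have hfe0 : Feas N N N := fun x =>
    ⟨Finset.Subset.refl _, Finset.Subset.refl _, fun q hq hx => (hA x q hq hx).symm⟩
  obtain ⟨⟨B, U⟩, hf, hmin'⟩ := Set.exists_min_image
    {q : (V → Finset V) × (V → Finset V) | Feas N q.1 q.2} (fun q => Phi N q.1 q.2)
    (Set.toFinite _) ⟨(N, N), hfe0⟩
  have hf : Feas N B U := hf
  have hmin : ∀ B' U', Feas N B' U' → Phi N B U ≤ Phi N B' U' := fun B' U' h =>
    hmin' (B', U') h
  have hBU : ∀ x, B x ⊆ U x := fun x => (hf x).2.1
  have hstar := star hf hmin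
  -- the sets
  let Z : V → Finset V := Zi N U
  let Z1 : V → Finset V := Zi N B
  have hZ1Z : ∀ p, Z1 p ⊆ Z p := Zi_mono hBU
  have hself : ∀ p, p ∈ Z1 p := fun p => mem_Zi.2 fun x hx => (hf x).1 hx
  let CZ : V → Finset V := fun p => cl N (Z p)
  let AZ : V → Finset V := fun x => cl CZ (N x)
  have hAZ : ∀ x, (AZ x) ⊆ cl N (U x) := by
    intro x y hy
    obtain ⟨p, hp, hy⟩ := mem_cl.1 hy
    exact cl_mono (Zi_sub hp) hy
  let l : ℤ := ∑ x, ((AZ x).card : ℤ) - ∑ p, ((CZ p).card : ℤ)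
  have hl : ∑ p, bd N (Z1 p) + l ≤ Phi N B U := by
    have h1 : ∑ x, ((AZ x).card : ℤ) ≤ ∑ x, ((cl N (U x)).card : ℤ) :=
      Finset.sum_le_sum fun x _ => by exact_mod_cast Finset.card_le_card (hAZ x)
    have h2 : ∑ x, ((cl N (U x)).card : ℤ) = ∑ x, bd N (U x) + ∑ x, ((U x).card : ℤ) := by
      rw [← Finset.sum_add_distrib]
      exact Finset.sum_congr rfl fun x _ => by unfold bd; ring
    have h3 : ∑ x, ((CZ x).card : ℤ) = ∑ x, bd N (Z x) + ∑ x, ((Z x).card : ℤ) := by
      rw [← Finset.sum_add_distrib]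
      exact Finset.sum_congr rfl fun x _ => by simp only [CZ]; unfold bd; ring
    simp only [Finset.sum_sub_distrib] at hstar
    simp only [l]
    unfold Phi
    change _ ≤ ∑ p, bd N (Z p) - ∑ p, bd N (Z1 p) at hstar
    change _ ≤ _ - ∑ p, ((Z p).card : ℤ)
    rw [h3]
    linarith
  -- the second family
  let Y : V → Finset V := fun b => univ.filter fun y => y = b ∨ ∀ p ∈ N y, b ∉ CZ p
  have hmemY : ∀ b y, y ∈ Y b ↔ (y = b ∨ ∀ p ∈ N y, b ∉ CZ p) := by intro b y; simp [Y]
  have hout : ∀ b p, p ∈ N b → p ≠ b → b ∉ CZ p := by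
    intro b p hp hpb hb
    obtain ⟨z, hz, hbz⟩ := mem_cl.1 hb
    have hzU : z ∈ U b := Zi_sub hp hz
    have hzb : z = b := (hf b).2.2 z hzU hbz
    subst hzb
    have h1 : z ∈ U p := Zi_sub (hN p) hz
    exact hpb ((hf p).2.2 z h1 hp).symm
  have hclY : ∀ b q, q ∈ cl N (Y b) → q = b ∨ b ∉ CZ q := by
    intro b q hq
    obtain ⟨y, hy, hqy⟩ := mem_cl.1 hq
    rcases (hmemY b y).1 hy with rfl | hy
    · by_cases hqb : q = y
      · exact Or.inl hqb
      · exact Or.inr (hout y q hqy hqb)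
    · exact Or.inr (hy q hqy)
  have hbdY : ∀ b, bd N (Y b) ≤ ((univ.filter fun x => b ∈ AZ x).card : ℤ) -
      ((univ.filter fun p => b ∈ CZ p).card : ℤ) := by
    intro b
    have hsub : (univ.filter fun p => b ∈ CZ p) ⊆ (univ.filter fun x => b ∈ AZ x) := by
      intro p hp
      simp only [mem_filter, mem_univ, true_and] at hp ⊢
      exact mem_cl.2 ⟨p, hN p, hp⟩
    have h1 := Finset.card_sdiff_add_card_eq_card hsub
    have h2 : cl N (Y b) \ Y b ⊆ (univ.filter fun x => b ∈ AZ x) \ (univ.filter fun p => b ∈ CZ p) := by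
      intro q hq
      rw [mem_sdiff] at hq ⊢
      have h3 := hclY b q hq.1
      have h4 : ¬ (q = b ∨ ∀ p ∈ N q, b ∉ CZ p) := fun h => hq.2 ((hmemY b q).2 h)
      push Not at h4
      obtain ⟨h5, p, hp, hbp⟩ := h4
      simp only [mem_filter, mem_univ, true_and]
      refine ⟨mem_cl.2 ⟨p, hp, hbp⟩, ?_⟩
      rcases h3 with h3 | h3
      · exact absurd h3 h5
      · exact h3
    have h3 := Finset.card_le_card h2
    rw [bd_eq_sdiff hN]
    have h1' : ((((univ.filter fun x => b ∈ AZ x) \ (univ.filter fun p => b ∈ CZ p)).card : ℤ)) +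
        ((univ.filter fun p => b ∈ CZ p).card : ℤ) = ((univ.filter fun x => b ∈ AZ x).card : ℤ) := by
      exact_mod_cast h1
    have h3' : ((cl N (Y b) \ Y b).card : ℤ) ≤
      (((univ.filter fun x => b ∈ AZ x) \ (univ.filter fun p => b ∈ CZ p)).card : ℤ) := by
      exact_mod_cast h3
    linarith
  have hsumY : ∑ b, bd N (Y b) ≤ l := by
    refine le_trans (Finset.sum_le_sum fun b _ => hbdY b) ?_
    rw [Finset.sum_sub_distrib, dc AZ, dc CZ]
  -- the new pair
  let B' : V → Finset V := fun p => cl N (Z1 p)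
  let U' : V → Finset V := fun p => univ.filter fun q => q = p ∨ p ∉ cl N (Y q)
  have hmemU' : ∀ p q, q ∈ U' p ↔ (q = p ∨ p ∉ cl N (Y q)) := by intro p q; simp [U']
  have hfe : Feas N B' U' := by
    intro p
    refine ⟨fun y hy => mem_cl.2 ⟨p, hself p, hy⟩, ?_, ?_⟩
    · intro q hq
      rw [hmemU']
      by_cases hqp : q = p
      · exact Or.inl hqp
      · right
        intro hp
        have h1 : q ∈ CZ p := cl_mono (hZ1Z p) hq
        rcases hclY q p hp with h | h
        · exact hqp h.symm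
        · exact h h1
    · intro q hq hpq
      rcases (hmemU' p q).1 hq with h | h
      · exact h
      · exact absurd (mem_cl.2 ⟨q, (hmemY q q).2 (Or.inl rfl), hpq⟩) h
  have hZU' : ∀ p, Zi N U' p ⊆ U' p := fun p => Zi_sub (hN p)
  have hPhi' : Phi N B' U' ≤ ∑ p, bd N (cl N (Z1 p)) + ∑ q, bd N (cl N (Y q)) := by
    unfold Phi
    have e1 : ∑ x, ((U' x).card : ℤ) - ∑ p, ((Zi N U' p).card : ℤ) =
        ∑ p, ((U' p \ Zi N U' p).card : ℤ) := by
      rw [← Finset.sum_sub_distrib]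
      refine Finset.sum_congr rfl fun p _ => ?_
      have h := Finset.card_sdiff_add_card_eq_card (hZU' p)
      have : ((U' p \ Zi N U' p).card : ℤ) + (Zi N U' p).card = (U' p).card := by exact_mod_cast h
      linarith
    have e2 : ∑ p, ((U' p \ Zi N U' p).card : ℤ) ≤ ∑ q, bd N (cl N (Y q)) := by
      rw [← dc (fun p => U' p \ Zi N U' p)]
      refine Finset.sum_le_sum fun q _ => ?_
      rw [bd_eq_sdiff hN]
      have : (univ.filter fun p => q ∈ U' p \ Zi N U' p) ⊆ cl N (cl N (Y q)) \ cl N (Y q) := by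
        intro p hp
        simp only [mem_filter, mem_univ, true_and, mem_sdiff, mem_Zi, not_forall] at hp
        obtain ⟨hq, x, hpx, hqx⟩ := hp
        have h1 : ¬ (q = x ∨ x ∉ cl N (Y q)) := fun h => hqx ((hmemU' x q).2 h)
        push Not at h1
        obtain ⟨hqx', hx⟩ := h1
        rcases (hmemU' p q).1 hq with h | h
        · exfalso
          subst h
          -- x → q, x ∈ cl (Y q), x ≠ q
          rcases hclY q x hx with h2 | h2
          · exact hqx' h2.symm
          · exact h2 (mem_cl.2 ⟨x, hZ1Z x (hself x), hpx⟩)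
        · rw [mem_sdiff]
          exact ⟨mem_cl.2 ⟨x, hx, hpx⟩, h⟩
      exact_mod_cast Finset.card_le_card this
    have e3 : ∑ x, bd N (B' x) = ∑ p, bd N (cl N (Z1 p)) := rfl
    rw [e3]
    linarith
  have hY2 : ∑ q, bd N (cl N (Y q)) ≤ ∑ q, bd N (Y q) := Finset.sum_le_sum fun q _ => hG' _
  have hstrict : ∑ p, bd N (cl N (Z1 p)) < ∑ p, bd N (Z1 p) := by
    refine Finset.sum_lt_sum (fun p _ => hG' _) ⟨p0, mem_univ _, hG _ ?_⟩
    intro hcl
    have h1 := hcyc (Z1 p0) (hself p0) hcl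
    have h2 : x0 ∈ U p0 := hBU p0 (Zi_sub (hN p0) h1)
    exact hx0 ((hf p0).2.2 x0 h2 hx0p)
  have := hmin B' U' hfe
  linarith

end Vale.Agent.P038.H323
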