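import Vale.Agent.P038.H323.Contra
import Vale.Agent.P038.Defs

/-!
# P038: a counterexample with fewest arcs satisfies (G); the second neighbourhood theorem
-/

set_option linter.unusedSectionVars false

namespace Vale.Agent.P038.H323

open Finset

variable {V : Type*} [Fintype V] [DecidableEq V]

/-- closed out-neighbourhood systems of oriented graphs all of whose vertices violate Seymour's
inequality -/
def CE (N : V → Finset V) : Prop :=
  (∀ x, x ∈ N x) ∧ (∀ x y, y ∈ N x → x ∈ N y → x = y) ∧
    ∀ v, (cl N (N v)).card + 1 < 2 * (N v).card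

/-- `(G)` for a counterexample with fewest arcs -/
theorem G_of_min {N : V → Finset V} (hCE : CE N)
    (hmin : ∀ N' : V → Finset V, CE N' → ∑ v, (N v).card ≤ ∑ v, (N' v).card) (S : Finset V)
    (hS : cl N S ≠ S) : bd N (cl N S) < bd N S := by
  classical
  obtain ⟨hN, hA, hF⟩ := hCE
  set L : Finset V := cl N S \ S with hL
  have hLne : L ≠ ∅ := by
    intro h
    apply hS
    have : cl N S ⊆ S := Finset.sdiff_eq_empty_iff_subset.1 h
    exact Finset.Subset.antisymm this (subset_cl hN S)
  let d : Finset V → ℤ := fun T => ((cl N T \ S).card : ℤ) - 2 * T.card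
  -- every minimiser of d equals L
  have key : ∀ T, T ⊆ L → (∀ T', T' ⊆ L → d T ≤ d T') → T = L := by
    intro T hT hTmin
    by_contra hne
    have hex : ∃ a, a ∈ L ∧ a ∉ T := by
      by_contra hcon
      push Not at hcon
      exact hne (Finset.Subset.antisymm hT hcon)
    obtain ⟨a, haL, haT⟩ := hex
    rw [hL, mem_sdiff] at haL
    obtain ⟨y0, hy0, hay0⟩ := mem_cl.1 haL.1
    let N' : V → Finset V := fun y => if y ∈ S then N y ∩ (S ∪ T) else N y
    have hsub : ∀ y, N' y ⊆ N y := by
      intro y
      by_cases hy : y ∈ S
      · simp only [N', hy, if_true]; exact inter_subset_left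
      · simp only [N', hy, if_false]; exact Finset.Subset.refl _
    have hCE' : CE N' := by
      refine ⟨?_, fun x y h1 h2 => hA x y (hsub _ h1) (hsub _ h2), ?_⟩
      · intro x
        by_cases hx : x ∈ S
        · simp only [N', hx, if_true]
          exact mem_inter.2 ⟨hN x, mem_union_left _ hx⟩
        · simp only [N', hx, if_false]; exact hN x
      · intro v
        by_cases hv : v ∈ S
        · have hNv : N' v = N v ∩ (S ∪ T) := by simp [N', hv]
          set D : Finset V := N v \ (S ∪ T) with hD
          have hDL : D ⊆ L := by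
            intro z hz
            rw [hD, mem_sdiff, mem_union, not_or] at hz
            rw [hL, mem_sdiff]
            exact ⟨mem_cl.2 ⟨v, hv, hz.1⟩, hz.2.1⟩
          have hDT : Disjoint T D := by
            rw [Finset.disjoint_left]
            intro z hz hzD
            rw [hD, mem_sdiff, mem_union, not_or] at hzD
            exact hzD.2.2 hz
          have hc1 : (N' v).card + D.card = (N v).card := by
            rw [hNv, hD]
            exact Finset.card_inter_add_card_sdiff _ _
          -- the lost part
          have hlost : cl N' (N' v) ⊆ cl N (N v) \ (cl N D \ (S ∪ cl N T)) := by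
            intro u hu
            obtain ⟨z, hz, huz⟩ := mem_cl.1 hu
            have hzN : z ∈ N v := hsub v hz
            rw [mem_sdiff]
            refine ⟨mem_cl.2 ⟨z, hzN, hsub z huz⟩, ?_⟩
            intro hcon
            rw [mem_sdiff, mem_union, not_or] at hcon
            rw [hNv, mem_inter, mem_union] at hz
            by_cases hzS : z ∈ S
            · have h1 : N' z = N z ∩ (S ∪ T) := by simp [N', hzS]
              rw [h1, mem_inter, mem_union] at huz
              rcases huz.2 with h | h
              · exact hcon.2.1 h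
              · exact hcon.2.2 (subset_cl hN T h)
            · have hzT : z ∈ T := by
                rcases hz.2 with h | h
                · exact absurd h hzS
                · exact h
              exact hcon.2.2 (mem_cl.2 ⟨z, hzT, hsub z huz⟩)
          have hDsub : cl N D \ (S ∪ cl N T) ⊆ cl N (N v) := by
            intro u hu
            rw [mem_sdiff] at hu
            exact cl_mono (by rw [hD]; exact sdiff_subset) hu.1
          have hc2 : (cl N' (N' v)).card + (cl N D \ (S ∪ cl N T)).card ≤ (cl N (N v)).card := by
            have h1 := Finset.card_le_card hlost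
            have h2 := Finset.card_sdiff_add_card_eq_card hDsub
            omega
          have hdT := hTmin (T ∪ D) (union_subset hT hDL)
          have hc3 : (cl N (T ∪ D) \ S).card = (cl N T \ S).card + (cl N D \ (S ∪ cl N T)).card := by
            have h1 : cl N (T ∪ D) \ S = (cl N T \ S) ∪ (cl N D \ (S ∪ cl N T)) := by
              rw [cl_union]
              ext z
              simp only [mem_sdiff, mem_union]
              tauto
            rw [h1]
            refine Finset.card_union_of_disjoint ?_
            rw [Finset.disjoint_left]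
            intro z hz hz2
            rw [mem_sdiff] at hz hz2
            exact hz2.2 (mem_union_right _ hz.1)
          have hc4 : (T ∪ D).card = T.card + D.card := Finset.card_union_of_disjoint hDT
          simp only [d] at hdT
          rw [hc3, hc4] at hdT
          push_cast at hdT
          have hFv := hF v
          omega
        · have hNv : N' v = N v := by simp [N', hv]
          rw [hNv]
          have : (cl N' (N v)).card ≤ (cl N (N v)).card := by
            refine Finset.card_le_card fun u hu => ?_
            obtain ⟨z, hz, huz⟩ := mem_cl.1 hu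
            exact mem_cl.2 ⟨z, hz, hsub z huz⟩
          have hFv := hF v
          omega
    have hlt : ∑ v, (N' v).card < ∑ v, (N v).card := by
      refine Finset.sum_lt_sum (fun v _ => Finset.card_le_card (hsub v)) ⟨y0, mem_univ _, ?_⟩
      refine Finset.card_lt_card ⟨hsub y0, fun hcon => ?_⟩
      have h1 := hcon hay0
      simp only [N', hy0, if_true, mem_inter, mem_union] at h1
      rcases h1.2 with h | h
      · exact haL.2 h
      · exact haT h
    exact absurd (hmin N' hCE') (not_le.2 hlt)
  have hdL : d L < d ∅ := by
    by_contra hcon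
    push Not at hcon
    obtain ⟨T, hT, hTm⟩ := Finset.exists_min_image L.powerset d ⟨L, Finset.mem_powerset_self L⟩
    have hTL := key T (Finset.mem_powerset.1 hT) fun T' hT' => hTm T' (Finset.mem_powerset.2 hT')
    subst hTL
    have hE := key ∅ (Finset.empty_subset _) fun T' hT' =>
      le_trans hcon (hTm T' (Finset.mem_powerset.2 hT'))
    exact hLne hE.symm
  have hd0 : d ∅ = 0 := by simp [d, cl]
  rw [hd0] at hdL
  simp only [d] at hdL
  -- conclude
  have h1 : bd N S = (L.card : ℤ) := by rw [bd_eq_sdiff hN]
  have h2 : bd N (cl N S) = ((cl N (cl N S) \ cl N S).card : ℤ) := bd_eq_sdiff hN _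
  have h3 : cl N (cl N S) \ cl N S = (cl N L \ S) \ L := by
    have e1 : cl N S = S ∪ L := by
      rw [hL]; exact (Finset.union_sdiff_of_subset (subset_cl hN S)).symm
    have e2 : cl N (cl N S) = cl N S ∪ cl N L := by
      conv_lhs => rw [e1]
      rw [cl_union]
    rw [e2]
    ext z
    have e3 : z ∈ cl N S ↔ z ∈ S ∨ z ∈ L := by rw [e1, mem_union]
    simp only [mem_sdiff, mem_union]
    rw [e3]
    tauto
  have h4 : L ⊆ cl N L \ S := by
    intro z hz
    rw [mem_sdiff]
    refine ⟨subset_cl hN L hz, ?_⟩
    rw [hL, mem_sdiff] at hz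
    exact hz.2
  have h5 := Finset.card_sdiff_add_card_eq_card h4
  rw [h1, h2, h3]
  have h6 : (((cl N L \ S) \ L).card : ℤ) + L.card = (cl N L \ S).card := by exact_mod_cast h5
  linarith

/-- there is no counterexample -/
theorem no_CE [Nonempty V] (N : V → Finset V) : ¬ CE N := by
  classical
  intro hCE0
  obtain ⟨N, hCE, hmin⟩ := Set.exists_min_image {N : V → Finset V | CE N}
    (fun N => ∑ v, (N v).card) (Set.toFinite _) ⟨N, hCE0⟩
  have hCE : CE N := hCE
  have hG := fun S hS => G_of_min hCE (fun N' h => hmin N' h) S hS
  obtain ⟨hN, hA, hF⟩ := hCE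
  -- a minimal nonempty closed set
  obtain ⟨S0, hS0, hS0m⟩ := Finset.exists_min_image
    ((univ : Finset (Finset V)).filter fun S => S.Nonempty ∧ cl N S = S) Finset.card
    ⟨univ, by
      simp only [mem_filter, mem_univ, true_and]
      exact ⟨Finset.univ_nonempty, Finset.Subset.antisymm (Finset.subset_univ _) (subset_cl hN _)⟩⟩
  simp only [mem_filter, mem_univ, true_and] at hS0 hS0m
  obtain ⟨p, hp⟩ := hS0.1
  have hcl : ∀ a ∈ S0, ∀ b ∈ N a, b ∈ S0 := by
    intro a ha b hb
    rw [← hS0.2]; exact mem_cl.2 ⟨a, ha, hb⟩
  -- an out-neighbour of p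
  have hq : ∃ q ∈ N p, q ≠ p := by
    by_contra hcon
    push Not at hcon
    have h1 : N p = {p} := by
      ext z; simp only [mem_singleton]
      exact ⟨fun h => hcon z h, fun h => h ▸ hN p⟩
    have h2 := hF p
    rw [h1] at h2
    simp only [card_singleton] at h2
    have h3 : 0 < (cl N {p}).card :=
      Finset.card_pos.2 ⟨p, mem_cl.2 ⟨p, mem_singleton_self p, hN p⟩⟩
    omega
  obtain ⟨q, hqp, hqne⟩ := hq
  -- an in-neighbour of p inside S0
  have hx : ∃ x ∈ S0, x ≠ p ∧ p ∈ N x := by
    by_contra hcon
    push Not at hcon
    have hcl' : cl N (S0.erase p) = S0.erase p := by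
      refine Finset.Subset.antisymm ?_ (subset_cl hN _)
      intro b hb
      obtain ⟨a, ha, hab⟩ := mem_cl.1 hb
      rw [mem_erase] at ha ⊢
      refine ⟨?_, hcl a ha.2 b hab⟩
      rintro rfl
      exact hcon a ha.2 ha.1 hab
    have h1 := hS0m (S0.erase p) ⟨⟨q, mem_erase.2 ⟨hqne, hcl p hp q hqp⟩⟩, hcl'⟩
    have h2 := Finset.card_erase_lt_of_mem hp
    omega
  obtain ⟨x, hxS, hxne, hpx⟩ := hx
  refine no_G N hN hA hG p x hxne hpx ?_
  intro S hpS hclS
  have hcl2 : cl N (S ∩ S0) = S ∩ S0 := by
    refine Finset.Subset.antisymm ?_ (subset_cl hN _)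
    intro b hb
    obtain ⟨a, ha, hab⟩ := mem_cl.1 hb
    rw [mem_inter] at ha ⊢
    refine ⟨?_, hcl a ha.2 b hab⟩
    rw [← hclS]; exact mem_cl.2 ⟨a, ha.1, hab⟩
  have h1 := hS0m (S ∩ S0) ⟨⟨p, mem_inter.2 ⟨hpS, hp⟩⟩, hcl2⟩
  have h2 : S ∩ S0 = S0 := Finset.eq_of_subset_of_card_le inter_subset_right h1
  have h3 : x ∈ S ∩ S0 := by rw [h2]; exact hxS
  exact (mem_inter.1 h3).1

/-- **Seymour's second neighbourhood conjecture.** -/
theorem seymour {V : Type*} [Fintype V] [Nonempty V] (D : OGraph V) :
    ∃ v, (N1 D v).card ≤ (N2 D v).card := by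
  classical
  by_contra hcon
  push Not at hcon
  let N : V → Finset V := fun v => insert v (N1 D v)
  have hmem : ∀ v u, u ∈ N v ↔ u = v ∨ D.arc v u := by
    intro v u; simp only [N, mem_insert, mem_N1]
  refine no_CE N ⟨fun x => (hmem x x).2 (Or.inl rfl), ?_, ?_⟩
  · intro x y h1 h2
    rcases (hmem x y).1 h1 with h | h
    · exact h.symm
    · rcases (hmem y x).1 h2 with h' | h'
      · exact h'
      · exact absurd h' (D.asymm x y h)
  · intro v
    have hv : v ∉ N1 D v := by rw [mem_N1]; exact D.loopless v
    have h1 : (N v).card = (N1 D v).card + 1 := Finset.card_insert_of_notMem hv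
    have h2 : cl N (N v) ⊆ insert v (N1 D v ∪ N2 D v) := by
      intro u hu
      obtain ⟨z, hz, huz⟩ := mem_cl.1 hu
      rw [mem_insert, mem_union, mem_N1, mem_N2]
      by_cases huv : u = v
      · exact Or.inl huv
      by_cases hvu : D.arc v u
      · exact Or.inr (Or.inl hvu)
      refine Or.inr (Or.inr ⟨huv, hvu, z, ?_, ?_⟩)
      · rcases (hmem v z).1 hz with h | h
        · exfalso
          subst h
          rcases (hmem z u).1 huz with h' | h'
          · exact huv h'
          · exact hvu h'
        · exact h
      · rcases (hmem z u).1 huz with h' | h'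
        · exfalso
          subst h'
          rcases (hmem v u).1 hz with h | h
          · exact huv h
          · exact hvu h
        · exact h'
    have h3 := Finset.card_le_card h2
    have h4 := Finset.card_insert_le v (N1 D v ∪ N2 D v)
    have h5 := Finset.card_union_le (N1 D v) (N2 D v)
    have h6 := hcon v
    omega

end Vale.Agent.P038.H323
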