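import Vale.Agent.P038.H323.Base

/-!
# P038: pairs of families, the functional, and the STAR inequality
-/

set_option linter.unusedSectionVars false

namespace Vale.Agent.P038.H323

open Finset

variable {V : Type*} [Fintype V] [DecidableEq V]

/-- intersection of the family over the closed in-neighbourhood -/
def Zi (N : V → Finset V) (U : V → Finset V) (p : V) : Finset V :=
  univ.filter fun q => ∀ x, p ∈ N x → q ∈ U x

/-- feasible pairs -/
def Feas (N : V → Finset V) (B U : V → Finset V) : Prop :=
  ∀ x, N x ⊆ B x ∧ B x ⊆ U x ∧ ∀ q ∈ U x, x ∈ N q → q = x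

/-- the functional -/
def Phi (N : V → Finset V) (B U : V → Finset V) : ℤ :=
  ∑ x, bd N (B x) + ∑ x, ((U x).card : ℤ) - ∑ p, ((Zi N U p).card : ℤ)

theorem mem_Zi {N U : V → Finset V} {p q : V} : q ∈ Zi N U p ↔ ∀ x, p ∈ N x → q ∈ U x := by
  simp [Zi]

theorem Zi_sub {N U : V → Finset V} {x p : V} (h : p ∈ N x) : Zi N U p ⊆ U x :=
  fun _ hq => mem_Zi.1 hq x h

theorem Zi_mono {N B U : V → Finset V} (h : ∀ x, B x ⊆ U x) (p : V) : Zi N B p ⊆ Zi N U p :=
  fun _ hq => mem_Zi.2 fun x hx => h x (mem_Zi.1 hq x hx)

section min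

variable {N B U : V → Finset V} (hf : Feas N B U)
  (hmin : ∀ B' U', Feas N B' U' → Phi N B U ≤ Phi N B' U')

include hf hmin

theorem row_min {x : V} {T : Finset V} (h1 : N x ⊆ T) (h2 : T ⊆ U x) : bd N (B x) ≤ bd N T := by
  have hfe : Feas N (Function.update B x T) U := by
    intro y
    by_cases hy : y = x
    · subst hy
      simp only [Function.update_self]
      exact ⟨h1, h2, (hf y).2.2⟩
    · rw [Function.update_of_ne hy]
      exact hf y
  have h := hmin _ _ hfe
  unfold Phi at h
  have hs : ∑ y, bd N (Function.update B x T y) = ∑ y, bd N (B y) - bd N (B x) + bd N T := by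
    have e1 : ∑ y, bd N (Function.update B x T y) =
        bd N T + ∑ y ∈ univ.erase x, bd N (B y) := by
      rw [← Finset.add_sum_erase univ _ (mem_univ x), Function.update_self]
      congr 1
      refine Finset.sum_congr rfl fun y hy => ?_
      rw [Function.update_of_ne (Finset.ne_of_mem_erase hy)]
    have e2 : ∑ y, bd N (B y) = bd N (B x) + ∑ y ∈ univ.erase x, bd N (B y) :=
      (Finset.add_sum_erase univ _ (mem_univ x)).symm
    rw [e1, e2]; ring
  rw [hs] at h
  linarith

theorem inter_row {x : V} {S : Finset V} (h : S ⊆ U x) : bd N (S ∩ B x) ≤ bd N S := by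
  have h1 := bd_submod N S (B x)
  have h2 : bd N (B x) ≤ bd N (S ∪ B x) :=
    row_min hf hmin ((hf x).1.trans subset_union_right) (union_subset h (hf x).2.1)
  linarith

theorem z1_min_aux (p : V) {T : Finset V} (hT : T ⊆ Zi N U p) (s : Finset V) :
    bd N (T.filter fun q => ∀ x ∈ s, p ∈ N x → q ∈ B x) ≤ bd N T := by
  induction s using Finset.induction_on with
  | empty => simp
  | insert x s hx ih =>
    by_cases hp : p ∈ N x
    · have e : (T.filter fun q => ∀ y ∈ insert x s, p ∈ N y → q ∈ B y) =
          (T.filter fun q => ∀ y ∈ s, p ∈ N y → q ∈ B y) ∩ B x := by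
        ext q
        simp only [mem_filter, mem_insert, mem_inter, forall_eq_or_imp]
        constructor
        · rintro ⟨h1, h2, h3⟩
          exact ⟨⟨h1, h3⟩, h2 hp⟩
        · rintro ⟨⟨h1, h3⟩, h2⟩
          exact ⟨h1, fun _ => h2, h3⟩
      rw [e]
      refine le_trans (inter_row hf hmin ?_) ih
      exact (Finset.filter_subset _ _).trans (hT.trans (Zi_sub hp))
    · have e : (T.filter fun q => ∀ y ∈ insert x s, p ∈ N y → q ∈ B y) =
          (T.filter fun q => ∀ y ∈ s, p ∈ N y → q ∈ B y) := by
        ext q
        simp only [mem_filter, mem_insert, forall_eq_or_imp]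
        constructor
        · rintro ⟨h1, _, h3⟩
          exact ⟨h1, h3⟩
        · rintro ⟨h1, h3⟩
          exact ⟨h1, fun h => absurd h hp, h3⟩
      rw [e]; exact ih

theorem z1_min {p : V} {T : Finset V} (h1 : Zi N B p ⊆ T) (hT : T ⊆ Zi N U p) :
    bd N (Zi N B p) ≤ bd N T := by
  have h := z1_min_aux hf hmin p hT univ
  have e : (T.filter fun q => ∀ x ∈ (univ : Finset V), p ∈ N x → q ∈ B x) = Zi N B p := by
    ext q
    simp only [mem_filter, mem_univ, forall_true_left, mem_Zi]
    constructor
    · rintro ⟨_, h⟩; exact h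
    · intro h; exact ⟨h1 (mem_Zi.2 h), h⟩
  rwa [e] at h

theorem col_hall (q : V) (R : Finset V) (hR : ∀ x ∈ R, q ∈ U x ∧ q ∉ B x) :
    R.card ≤ (univ.filter fun p => q ∈ Zi N U p ∧ ∃ x ∈ R, p ∈ N x).card := by
  classical
  let U' : V → Finset V := fun x => if x ∈ R then (U x).erase q else U x
  have hfe : Feas N B U' := by
    intro x
    by_cases hx : x ∈ R
    · have hU : U' x = (U x).erase q := by simp [U', hx]
      rw [hU]
      refine ⟨(hf x).1, ?_, fun r hr => (hf x).2.2 r (Finset.mem_of_mem_erase hr)⟩
      intro r hr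
      refine Finset.mem_erase.2 ⟨?_, (hf x).2.1 hr⟩
      rintro rfl
      exact (hR x hx).2 hr
    · have hU : U' x = U x := by simp [U', hx]
      rw [hU]; exact hf x
  have h := hmin _ _ hfe
  unfold Phi at h
  have s1 : ∑ x, ((U' x).card : ℤ) = ∑ x, ((U x).card : ℤ) - R.card := by
    have e : ∀ x, ((U' x).card : ℤ) = ((U x).card : ℤ) - if x ∈ R then 1 else 0 := by
      intro x
      by_cases hx : x ∈ R
      · have hU : U' x = (U x).erase q := by simp [U', hx]
        have hc := Finset.card_erase_add_one (hR x hx).1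
        rw [hU, if_pos hx]
        have : (((U x).erase q).card : ℤ) + 1 = (U x).card := by exact_mod_cast hc
        linarith
      · have hU : U' x = U x := by simp [U', hx]
        rw [hU, if_neg hx]; ring
    simp_rw [e]
    simp [Finset.sum_sub_distrib]
  set M : Finset V := univ.filter fun p => q ∈ Zi N U p ∧ ∃ x ∈ R, p ∈ N x with hM
  have s2 : ∑ p, ((Zi N U' p).card : ℤ) = ∑ p, ((Zi N U p).card : ℤ) - M.card := by
    have e : ∀ p, ((Zi N U' p).card : ℤ) = ((Zi N U p).card : ℤ) - if p ∈ M then 1 else 0 := by
      intro p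
      by_cases hp : p ∈ M
      · obtain ⟨hq, x0, hx0, hpx0⟩ := (by simpa [hM] using hp : q ∈ Zi N U p ∧ ∃ x ∈ R, p ∈ N x)
        have hU : Zi N U' p = (Zi N U p).erase q := by
          ext r
          simp only [mem_Zi, mem_erase]
          constructor
          · intro hr
            have h0 := hr x0 hpx0
            simp only [U', hx0, if_true, mem_erase] at h0
            refine ⟨h0.1, fun x hx => ?_⟩
            have h1 := hr x hx
            by_cases hxR : x ∈ R
            · simp only [U', hxR, if_true, mem_erase] at h1; exact h1.2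
            · simp only [U', hxR, if_false] at h1; exact h1
          · rintro ⟨h0, h1⟩ x hx
            by_cases hxR : x ∈ R
            · simp only [U', hxR, if_true, mem_erase]; exact ⟨h0, h1 x hx⟩
            · simp only [U', hxR, if_false]; exact h1 x hx
        have hc := Finset.card_erase_add_one hq
        rw [hU, if_pos hp]
        have : (((Zi N U p).erase q).card : ℤ) + 1 = (Zi N U p).card := by exact_mod_cast hc
        linarith
      · have hU : Zi N U' p = Zi N U p := by
          ext r
          simp only [mem_Zi]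
          constructor
          · intro hr x hx
            have h1 := hr x hx
            by_cases hxR : x ∈ R
            · simp only [U', hxR, if_true, mem_erase] at h1; exact h1.2
            · simp only [U', hxR, if_false] at h1; exact h1
          · intro h1 x hx
            by_cases hxR : x ∈ R
            · simp only [U', hxR, if_true, mem_erase]
              refine ⟨?_, h1 x hx⟩
              rintro rfl
              exact hp (by simp only [hM, mem_filter, mem_univ, true_and]
                           exact ⟨mem_Zi.2 h1, x, hxR, hx⟩)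
            · simp only [U', hxR, if_false]; exact h1 x hx
        rw [hU, if_neg hp]; ring
    simp_rw [e]
    simp [Finset.sum_sub_distrib]
  rw [s1, s2] at h
  have : (R.card : ℤ) ≤ M.card := by linarith
  exact_mod_cast this

/-- one step of STAR -/
theorem step (S : Finset V) (q : V) :
    ∑ x, (mu N (B x) (U x) (insert q S) - mu N (B x) (U x) S) ≤
      ∑ p, (mu N (Zi N B p) (Zi N U p) (insert q S) - mu N (Zi N B p) (Zi N U p) S) := by
  classical
  have hBU : ∀ x, B x ⊆ U x := fun x => (hf x).2.1
  have hZ : ∀ p, Zi N B p ⊆ Zi N U p := Zi_mono hBU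
  have hnn : ∀ x, 0 ≤ mu N (B x) (U x) (insert q S) - mu N (B x) (U x) S := fun x =>
    sub_nonneg.2 (mu_mono (hBU x) (Finset.subset_insert _ _))
  refine layer (P := fun p => q ∈ Zi N U p) (adj := fun x p => p ∈ N x)
    (∑ x, (mu N (B x) (U x) (insert q S) - mu N (B x) (U x) S)).toNat _ _ hnn
    (fun p => sub_nonneg.2 (mu_mono (hZ p) (Finset.subset_insert _ _))) ?_ ?_ ?_
  · intro R hR
    refine col_hall hf hmin q R fun x hx => ?_
    have h := hR x hx
    by_contra hcon
    have : mu N (B x) (U x) (insert q S) ≤ mu N (B x) (U x) S := by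
      refine mu_insert_eq (hBU x) ?_
      by_cases h1 : q ∈ B x
      · exact Or.inl h1
      · right; intro h2; exact hcon ⟨h2, h1⟩
    linarith
  · intro x p hq hxp
    have := mu_marginal (N := N) (S := S) (hBU x) (hZ p) (Zi_sub hxp) (Zi_sub hxp) hq
    linarith
  · exact Int.self_le_toNat _

theorem star_aux (S : Finset V) :
    ∑ x, (mu N (B x) (U x) S - mu N (B x) (U x) ∅) ≤
      ∑ p, (mu N (Zi N B p) (Zi N U p) S - mu N (Zi N B p) (Zi N U p) ∅) := by
  induction S using Finset.induction_on with
  | empty => simp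
  | insert q S hq ih =>
    have h := step hf hmin S q
    simp only [Finset.sum_sub_distrib] at *
    linarith

theorem star : ∑ x, (bd N (U x) - bd N (B x)) ≤
    ∑ p, (bd N (Zi N U p) - bd N (Zi N B p)) := by
  have hBU : ∀ x, B x ⊆ U x := fun x => (hf x).2.1
  have h := star_aux hf hmin (univ : Finset V)
  refine le_trans (Finset.sum_le_sum fun x _ => ?_) (le_trans h (Finset.sum_le_sum fun p _ => ?_))
  · obtain ⟨T, h1, h2, h3, h4⟩ := mu_exists N (univ : Finset V) (hBU x)
    have hT : T = U x := by
      refine Finset.Subset.antisymm h3 fun z hz => h2 (mem_inter.2 ⟨mem_univ _, hz⟩)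
    have h5 : mu N (B x) (U x) ∅ ≤ bd N (B x) :=
      mu_le (Finset.Subset.refl _) (by simp) (hBU x)
    rw [h4, hT]; linarith
  · obtain ⟨T, h1, h2, h3, h4⟩ := mu_exists N (∅ : Finset V) (Zi_mono hBU p : Zi N B p ⊆ Zi N U p)
    have h5 : mu N (Zi N B p) (Zi N U p) univ ≤ bd N (Zi N U p) :=
      mu_le (Zi_mono hBU p) inter_subset_right (Finset.Subset.refl _)
    have h6 := z1_min hf hmin h1 h3
    rw [h4]; linarith

end min

end Vale.Agent.P038.H323
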